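import Mathlib

/-!
# P269: the cohomological data of the target and the invariants of degree zero
-/

namespace P269A

open Finset Polynomial

/-- The cohomological data of `X`: the dimension `r`; the Hodge type `(p a, q a)` of the basis
class `φ_a`; the index `o` with `φ_o = 1`; `c_j(TX) = γ j • H ^ j`; and
`J e [a_1, …, a_n] = ∫_X H ^ e ∪ φ_{a_1} ∪ ⋯ ∪ φ_{a_n}`. -/
structure Coh (ι : Type) where
  r : ℕ
  p : ι → ℕ
  q : ι → ℕ
  o : ι
  γ : ℕ → ℂ
  J : ℕ → List ι → ℂ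

/-- Numbers attached to lists of insertions `τ_m(φ_a)`, written `(m, a)`. -/
abbrev Ser (ι : Type) := List (ℕ × ι) → ℂ

namespace Coh

variable {ι : Type} [Fintype ι] [DecidableEq ι] (X : Coh ι)

/-- The cohomological degree of `φ_a`. -/
def deg (a : ι) : ℕ := X.p a + X.q a

/-- The grading `μ`. -/
noncomputable def μ (a : ι) : ℂ := X.p a - X.r / 2

/-- The Poincare pairing. -/
def η : Matrix ι ι ℂ := fun a b => X.J 0 [a, b]

/-- `c_1 ∪ φ_a = ∑ R a b φ_b` (the matrix is read off with the Poincare pairing). -/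
noncomputable def R : Matrix ι ι ℂ := (Matrix.of fun a b => X.γ 1 * X.J 1 [a, b]) * X.η⁻¹

/-- The super trace of a diagonal operator. -/
noncomputable def str (f : ι → ℂ) : ℂ := ∑ a, (-1) ^ X.deg a * f a

/-- The Euler class of `E^* ⊗ TX` on `Mbar_{g,n} × X`, a polynomial in `H` over the polynomials
in the `λ_i = c_i(E)`: the resultant `∏_{i,j} (x_j - l_i)` of `∏ (y + l_i) = ∑ λ_i y^(g-i)` and
`∏ (y + x_j) = ∑ c_j y^(r-j)`. -/
noncomputable def eul (g : ℕ) : (MvPolynomial ℕ ℂ)[X] :=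
  resultant (Polynomial.X ^ g + ∑ i ∈ Icc 1 g, monomial (g - i) (C (MvPolynomial.X i)))
    (∑ j ∈ range (X.r + 1), monomial (X.r - j) (monomial j (MvPolynomial.C (X.γ j)))) g X.r

/-- The degree zero invariants `∫_{Mbar_{g,n} × X} e(E^* ⊗ TX) ∏ ψ_i^{m_i} φ_{a_i}`, where
`I g [m_1, …, m_n] P = ∫_{Mbar_{g,n}} P(λ) ∏ ψ_i^{m_i}`; zero in the unstable range. -/
noncomputable def N0 (I : ℕ → List ℕ → MvPolynomial ℕ ℂ → ℂ) (g : ℕ) : Ser ι := fun l =>
  if 2 < 2 * g + l.length then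
    ∑ e ∈ range (X.r + 1), I g (l.map Prod.fst) ((X.eul g).coeff e) * X.J e (l.map Prod.snd)
  else 0

end Coh

end P269A
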