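import Vale.Agent.P269A.Defs

/-!
# P269, block A: the interfaces (what the algebra uses from the blocks H, C, D)
-/

namespace P269A

open Finset

variable {ι : Type} [Fintype ι] [DecidableEq ι]

/-- What block H proves about the cohomological data. -/
structure CohOK (X : Coh ι) : Prop where
  g0 : X.γ 0 = 1
  po : X.p X.o = 0
  qo : X.q X.o = 0
  conn : ∀ a, X.p a = 0 → X.q a = 0 → a = X.o
  unit : ∀ e l, X.J e (X.o :: l) = X.J e l
  swap : ∀ e l₁ a b l₂,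
    X.J e (l₁ ++ a :: b :: l₂) = (-1) ^ (X.deg a * X.deg b) * X.J e (l₁ ++ b :: a :: l₂)
  type : ∀ e l, X.J e l ≠ 0 → e + (l.map X.p).sum = X.r ∧ e + (l.map X.q).sum = X.r
  nondeg : IsUnit X.η.det
  split : ∀ e₁ e₂ l₁ l₂, ∑ a, ∑ b, X.J e₁ (l₁ ++ [a]) * X.η⁻¹ a b * X.J e₂ (b :: l₂) =
    X.J (e₁ + e₂) (l₁ ++ l₂)
  gb : X.str (fun _ => 1) = X.γ X.r * X.J X.r []
  lw : X.str (fun a => X.μ a ^ 2) =
    (X.r * X.γ X.r / 12 + X.γ 1 * X.γ (X.r - 1) / 6) * X.J X.r []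

/-- The lists obtained by lowering one positive entry by one. -/
def low : List ℕ → List (List ℕ)
  | [] => []
  | 0 :: ms => (low ms).map (0 :: ·)
  | (m + 1) :: ms => (m :: ms) :: (low ms).map ((m + 1) :: ·)

/-- What block C proves about `I g ms P = ∫_{Mbar_{g,n}} P(λ) ∏ ψ_i^{m_i}` (`λ_i = X i`,
stable range only). -/
structure ModOK (I : ℕ → List ℕ → MvPolynomial ℕ ℂ → ℂ) : Prop where
  add : ∀ g ms P Q, 2 < 2 * g + ms.length → I g ms (P + Q) = I g ms P + I g ms Q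
  smul : ∀ g ms (c : ℂ) P, 2 < 2 * g + ms.length → I g ms (c • P) = c * I g ms P
  perm : ∀ g ms ms' P, 2 < 2 * g + ms.length → ms.Perm ms' → I g ms P = I g ms' P
  string : ∀ g ms P, 2 < 2 * g + ms.length →
    I g (0 :: ms) P = ((low ms).map fun u => I g u P).sum
  dilaton : ∀ ms : List ℕ, 0 < ms.length → I 1 (1 :: ms) 1 = ms.length * I 1 ms 1
  v03 : I 0 [0, 0, 0] 1 = 1
  v11 : I 1 [1] 1 = 1 / 24
  l11 : I 1 [0] (MvPolynomial.X 1) = 1 / 24
  degree : ∀ g ms P w, 2 < 2 * g + ms.length → P.IsWeightedHomogeneous (fun i : ℕ => i) w →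
    I g ms P ≠ 0 → w + ms.sum + 3 = 3 * g + ms.length

/-- The virtual dimension of `Mbar_{g,0}(X, d)` when `c_1 = c H`. -/
def vd (r : ℕ) (c : ℤ) (g d : ℕ) : ℤ := (3 - r) * (g - 1) + c * d

/-- What block D proves: the vanishing for degree reasons. -/
def Van (X : Coh ι) (c : ℤ) (F : Ser ι) (g d : ℕ) : Prop :=
  ∀ l, F l ≠ 0 → ((l.map fun i => X.deg i.2 - 2).sum : ℕ) ≤ 2 * vd X.r c g d

end P269A
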